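import Vale.Agent.P112.MathlibUsed

open MeasureTheory Filter Topology

namespace Vale.Agent.P112

/-- The Euclidean plane. -/
abbrev Plane := EuclideanSpace ℝ (Fin 2)

/-- The truncated directional Hilbert transform: the integral of `f (x - t v(x)) dt / t`
over `ε < |t| < a`. -/
noncomputable def truncHilbert (v : Plane → Plane) (ε a : ℝ) (f : Plane → ℂ) (x : Plane) : ℂ :=
  ∫ t in {t : ℝ | ε < |t| ∧ |t| < a}, f (x - t • v x) / (t : ℂ)

/-- The principal value `H_{v,a} f (x)`: the limit of the truncated transforms as `ε ↓ 0`. -/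
noncomputable def hilbert (v : Plane → Plane) (a : ℝ) (f : Plane → ℂ) (x : Plane) : ℂ :=
  limUnder (𝓝[>] (0 : ℝ)) fun ε => truncHilbert v ε a f x

/-- The weak type (2,2) inequality with constant `C` for the field `v` at scale `a`,
for all Schwartz functions. -/
def WeakTwoTwo (v : Plane → Plane) (a C : ℝ) : Prop :=
  ∀ f : SchwartzMap Plane ℂ, ∀ lam : ℝ, 0 < lam →
    volume {x | lam < ‖hilbert v a f x‖} ≤ ENNReal.ofReal (C / lam ^ 2 * ∫ x, ‖f x‖ ^ 2)

/-- The pair `(a, C)` is admissible in Stein's conjecture: the weak type (2,2) inequality holds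
with the same `a` and `C` for every unit vector field with Lipschitz constant at most one. -/
def Admissible (a C : ℝ) : Prop :=
  ∀ v : Plane → Plane, (∀ x, ‖v x‖ = 1) → LipschitzWith 1 v → WeakTwoTwo v a C

end Vale.Agent.P112
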