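import Mathlib.Algebra.Order.Archimedean.Real.Hom
import Mathlib.Algebra.Order.Quantale
import Mathlib.Analysis.Calculus.Rademacher
import Mathlib.Analysis.Distribution.SchwartzSpace.Basic
import Mathlib.Analysis.InnerProductSpace.NormDet
import Mathlib.Analysis.SpecialFunctions.ImproperIntegrals
import Mathlib.Analysis.SpecialFunctions.PolarCoord
import Mathlib.Data.Nat.Dist
import Mathlib.LinearAlgebra.Complex.FiniteDimensional
import Mathlib.MeasureTheory.Order.Group.Lattice
import Mathlib.Order.CompletePartialOrder
import Mathlib.RingTheory.PicardGroup
import Mathlib.Tactic
import Mathlib.Topology.Algebra.ProperAction.Basic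
import Mathlib.Topology.UniformSpace.Uniformizable

/-! The part of Mathlib that the development of this folder uses. -/
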